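import Vale.Agent.P343.H741.Iface

/-!
Row G: toggles.
-/

set_option autoImplicit false

namespace Vale.Agent.P343.H463

open Relation Vale.Agent.P343 Vale.Agent.P343.H741

variable {Q T' : Type}

/-- The box of a piece. -/
def bx (e f : NB Q) (x : T' → Bool) (p : NB Q ⊕ T') : NB Q :=
  Sum.elim id (fun t => if x t then f else e) p

theorem pv_eq (e f : NB Q) (x : T' → Bool) (L : List (NB Q ⊕ T')) :
    pv e f x L = (L.map (bx e f x)).prod := rfl

/-- The chain of a list of pieces between two boxes `E`. -/
def chn (e f : NB Q) (x : T' → Bool) (L : List (NB Q ⊕ T')) (E : NB Q) : ℕ → NB Q :=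
  lch (E :: (L.map (bx e f x) ++ [E]))

theorem chn_zero (e f : NB Q) (x : T' → Bool) (L : List (NB Q ⊕ T')) (E : NB Q) :
    chn e f x L E 0 = E := by
  simp [chn, lch]

theorem chn_succ (e f : NB Q) (x : T' → Bool) (L : List (NB Q ⊕ T')) (E : NB Q) {i : ℕ}
    (h : i < L.length) : chn e f x L E (i + 1) = bx e f x L[i] := by
  have h1 : i < (L.map (bx e f x)).length := by rw [List.length_map]; exact h
  simp [chn, lch, List.getElem?_append_left h1, h]

theorem chn_last (e f : NB Q) (x : T' → Bool) (L : List (NB Q ⊕ T')) (E : NB Q) :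
    chn e f x L E (L.length + 1) = E := by
  simp [chn, lch]

/-- A run of the chain `c` is a run of the chain `c'` if each of its steps is one. -/
theorem transfer {c c' : ℕ → NB Q} {lo hi : ℕ} {s w : ℕ × (Bool × Q)}
    (H : ∀ i γ γ', lo ≤ i → i < hi → c i γ γ' → Rn c lo hi s (ent i (i + 1) γ.1, γ) →
      Rn c lo hi (ext i (i + 1) γ'.1, γ') w → c' i γ γ') :
    ∀ u, Rn c lo hi s u → Rn c lo hi u w → Rn c' lo hi s u := by
  intro u h
  induction h with
  | refl => intro _; exact ReflTransGen.refl
  | tail h1 h2 ih =>
    intro h3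
    have h4 := ih (ReflTransGen.head h2 h3)
    refine ReflTransGen.tail h4 ?_
    cases h2 with
    | mk i γ γ' a1 a2 a3 => exact St.mk i γ γ' a1 a2 (H i γ γ' a1 a2 a3 h1 h3)

/-- A predicate which holds at most once in a list. -/
theorem unique_pos {A : Type} (p : A → Bool) (L : List A) (h : L.countP p ≤ 1) {i j : ℕ}
    (hi : i < L.length) (hj : j < L.length) (h1 : p L[i] = true) (h2 : p L[j] = true) :
    i = j := by
  have key : ∀ i j : ℕ, ∀ (hi : i < L.length) (hj : j < L.length), p L[i] = true →
      p L[j] = true → i < j → False := by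
    intro i j hi hj h1 h2 hij
    have e1 : L = L.take (i + 1) ++ L.drop (i + 1) := (List.take_append_drop _ _).symm
    have e2 : L.countP p = (L.take (i + 1)).countP p + (L.drop (i + 1)).countP p := by
      conv_lhs => rw [e1]
      exact List.countP_append
    have e3 : 0 < (L.take (i + 1)).countP p := by
      rw [List.countP_pos_iff]
      refine ⟨L[i], ?_, h1⟩
      rw [List.mem_take_iff_getElem]
      exact ⟨i, by omega, rfl⟩
    have e4 : 0 < (L.drop (i + 1)).countP p := by
      rw [List.countP_pos_iff]
      refine ⟨L[j], ?_, h2⟩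
      rw [List.mem_drop_iff_getElem]
      refine ⟨j - (i + 1), by omega, ?_⟩
      congr 1
      omega
    omega
  rcases lt_trichotomy i j with h3 | h3 | h3
  · exact (key i j hi hj h1 h2 h3).elim
  · exact h3
  · exact (key j i hj hi h2 h1 h3).elim

theorem toggle (hA : ∀ (Q : Type) [Finite Q], AlgFacts Q)
    (hP : ∀ (Q : Type) [Finite Q], PtsFacts Q) : ToggleStmt := by
  classical
  intro Q T' _ e f L x0 he hf hef hfe hL hE hcnt
  have A := hA Q
  have P := hP Q
  set E : NB Q := pv e f x0 L with hEdef
  set n : ℕ := L.length with hn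
  have key : ∀ (x : T' → Bool) (d : Bool) (a b : Q), Cr E (pv e f x L) E d a b ↔
      Rn (chn e f x L E) 0 (n + 2) (ent 1 (n + 1) d, (d, a)) (ext 1 (n + 1) d, (d, b)) := by
    intro x d a b
    have h := A.list (l := E) (r := E) (M := L.map (bx e f x)) (d := d) (x := a) (y := b)
      (by simpa using hL)
    rw [List.length_map] at h
    exact h
  -- the witness
  let W : T' → Bool × Set Q → Bool → Q → Prop := fun t κ δ z =>
    ∃ y, Pt E κ.1 y ∧ κ.2 = cl E κ.1 y ∧ Pt e δ z ∧ ¬ X e f δ z z ∧
      ∃ (i : ℕ) (h : i < L.length) (a b : Q), L[i] = Sum.inr t ∧ Via e δ a b z ∧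
        Rn (chn e f x0 L E) 0 (n + 2) (ent 1 (n + 1) κ.1, (κ.1, y)) (ent (i + 1) (i + 1 + 1) δ, (δ, a)) ∧
        Rn (chn e f x0 L E) 0 (n + 2) (ext (i + 1) (i + 1 + 1) δ, (δ, b)) (ext 1 (n + 1) κ.1, (κ.1, y))
  refine ⟨fun t => {κ | ∃ δ z, W t κ δ z}, ?_, ?_⟩
  · intro t ht
    have hch : ∀ κ : Bool × Set Q, κ ∈ {κ : Bool × Set Q | ∃ δ z, W t κ δ z} →
        ∃ p : Bool × Q, W t κ p.1 p.2 := by
      rintro κ ⟨δ, z, h⟩
      exact ⟨(δ, z), h⟩
    by_cases hQ : Nonempty Q
    · choose! p hp using hch
      have h1 : {κ : Bool × Set Q | ∃ δ z, W t κ δ z}.ncard ≤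
          ((Set.univ : Set Bool) ×ˢ (Lost e f)).ncard := by
        refine Set.ncard_le_ncard_of_injOn
          (fun κ => (κ.1, ((p κ).1, cl e (p κ).1 (p κ).2))) ?_ ?_ (Set.toFinite _)
        · intro κ hκ
          obtain ⟨y, -, -, h3, h4, -⟩ := hp κ hκ
          exact ⟨Set.mem_univ _, ⟨(p κ).2, h3, rfl, h4⟩⟩
        · intro κ hκ κ' hκ' hg
          obtain ⟨y, hy1, hy2, hz1, hz2, i, hi, a, b, hLi, hvia, hr1, hr2⟩ := hp κ hκ
          obtain ⟨y', hy1', hy2', hz1', hz2', i', hi', a', b', hLi', hvia', hr1', hr2'⟩ := hp κ' hκ'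
          simp only [Prod.mk.injEq] at hg
          obtain ⟨g1, g2, g3⟩ := hg
          obtain ⟨D, K⟩ := κ
          obtain ⟨D', K'⟩ := κ'
          simp only at g1 hy1 hy2 hr1 hr2 hy1' hy2' hr1' hr2'
          subst g1
          generalize hpk : p (D, K) = pk at *
          generalize hpk' : p (D, K') = pk' at *
          obtain ⟨δ, z⟩ := pk
          obtain ⟨δ', z'⟩ := pk'
          simp only at g2 g3 hz1 hz2 hvia hr1 hr2 hz1' hz2' hvia' hr1' hr2'
          subst g2
          have hii : i = i' := by
            refine unique_pos (Box.isT t) L (hcnt t ht) hi hi' ?_ ?_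
            · rw [Box.isT_iff, hLi]
            · rw [Box.isT_iff, hLi']
          subst hii
          have hzz : T e δ z z' ∧ T e δ z' z := by
            have : z' ∈ cl e δ z' := ⟨hz1', hz1'⟩
            rw [← g3] at this
            exact this
          have hbox : chn e f x0 L E (i + 1) = e := by
            rw [chn_succ e f x0 L E hi, hLi]
            simp [bx, ht]
          have hstep : ∀ a b : Q, e (δ, a) (δ, b) → Rn (chn e f x0 L E) 0 (n + 2)
              (ent (i + 1) (i + 1 + 1) δ, (δ, a)) (ext (i + 1) (i + 1 + 1) δ, (δ, b)) := by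
            intro a b hab
            refine ReflTransGen.single (St.mk (i + 1) (δ, a) (δ, b) (by omega) (by omega) ?_)
            rw [hbox]
            exact hab
          have hT1 : T E D y y' := by
            refine (key x0 D y y').2 ?_
            exact (hr1.trans (hstep a b' (P.via3 he hvia hvia' hzz.1))).trans hr2'
          have hT2 : T E D y' y := by
            refine (key x0 D y' y).2 ?_
            exact (hr1'.trans (hstep a' b (P.via3 he hvia' hvia hzz.2))).trans hr2
          have hcl : cl E D y = cl E D y' := by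
            ext u
            constructor
            · rintro ⟨u1, u2⟩
              exact ⟨P.trans hE hT2 u1, P.trans hE u2 hT1⟩
            · rintro ⟨u1, u2⟩
              exact ⟨P.trans hE hT1 u1, P.trans hE u2 hT2⟩
          rw [hy2, hy2', hcl]
      rw [Set.ncard_prod, Set.ncard_univ, Nat.card_eq_fintype_card, Fintype.card_bool] at h1
      exact h1
    · have h2 : {κ : Bool × Set Q | ∃ δ z, W t κ δ z} = ∅ := by
        ext κ
        constructor
        · rintro ⟨δ, z, -⟩
          exact (hQ ⟨z⟩).elim
        · intro h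
          exact h.elim
      beta_reduce
      rw [h2, Set.ncard_empty]
      exact Nat.zero_le _
  · intro x hx d y hy hno
    refine (key x d y y).2 ?_
    have hrun : Rn (chn e f x0 L E) 0 (n + 2) (ent 1 (n + 1) d, (d, y))
        (ext 1 (n + 1) d, (d, y)) := (key x0 d y y).1 hy
    refine transfer ?_ _ hrun ReflTransGen.refl
    intro i γ γ' _ hi2 hst hr1 hr2
    rcases Nat.eq_zero_or_pos i with rfl | hi0
    · rw [chn_zero] at hst ⊢
      exact hst
    · obtain ⟨k, rfl⟩ : ∃ k, i = k + 1 := ⟨i - 1, by omega⟩
      rcases Nat.lt_or_ge k L.length with hk | hk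
      · rw [chn_succ e f x0 L E hk] at hst
        rw [chn_succ e f x L E hk]
        rcases hp : L[k] with g | t
        · rw [hp] at hst
          exact hst
        · rw [hp] at hst
          simp only [bx, Sum.elim_inr] at hst ⊢
          by_cases hx0 : x0 t = true
          · rw [if_pos (hx t hx0)]
            rw [if_pos hx0] at hst
            exact hst
          · rw [if_neg hx0] at hst
            by_cases hxt : x t = true
            · rw [if_pos hxt]
              have hx0' : x0 t = false := by simpa using hx0
              have hnot := hno t hx0' hxt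
              obtain ⟨δ, a⟩ := γ
              obtain ⟨δ', b⟩ := γ'
              by_cases hd : δ = δ'
              · subst hd
                obtain ⟨z, hz1, hz2⟩ := P.via1 he hst
                by_cases hX : X e f δ z z
                · exact P.via2 he hef hfe hz2 hX
                · exfalso
                  exact hnot ⟨δ, z, y, hy, rfl, hz1, hX, k, hk, a, b, hp, hz2, hr1, hr2⟩
              · exact P.bounce hef hfe hd hst
            · rw [if_neg hxt]
              exact hst
      · have hk' : k = L.length := by omega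
        subst hk'
        rw [chn_last] at hst ⊢
        exact hst

end Vale.Agent.P343.H463
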